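import Vale.Agent.P114.Blocks.Main

/-!
The entropy-rate formula for self-similar systems made of complete-residue blocks with arbitrary
real translations.
-/

open MeasureTheory Vale.Agent.P114.Blocks

namespace Vale.Agent.Results.P114.ResidueBlocks

/-- For every system whose maps come in blocks `x ↦ (ε x + t + d) / M`, `d` running through a
complete residue system modulo the integer `M ≥ 2`, with the weight of a block shared equally, every
self-similar probability measure satisfies the entropy-rate dimension formula. -/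
theorem result {S : Type} [Fintype S] (M : S → ℕ) (hM : ∀ s, 2 ≤ M s) (ε : S → ℤ)
    (hε : ∀ s, ε s = 1 ∨ ε s = -1) (t : S → ℝ) (dig : (s : S) → Fin (M s) → ℤ)
    (hdig : ∀ s j j', (M s : ℤ) ∣ dig s j - dig s j' → j = j') (q : S → ℝ) (hq : ∀ s, 0 < q s)
    (hq1 : ∑ s, q s = 1) (μ : Measure ℝ) [IsProbabilityMeasure μ]
    (hμ : μ = ∑ l : (Σ s, Fin (M s)),
      ENNReal.ofReal (q l.1 / M l.1) • μ.map (blockMap M ε t dig l)) :
    lowerDim μ = ENNReal.ofReal (min 1
      (walkRate (blockMap M ε t dig) (fun l => q l.1 / M l.1)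
        / ∑ s, q s * Real.logb 2 (M s))) := by
  have hq' : ∀ s, 0 ≤ q s := fun s => (hq s).le
  have hne : (Finset.univ : Finset S).Nonempty := by
    by_contra h
    simp [Finset.not_nonempty_iff_eq_empty.1 h] at hq1
  have hχ : 0 < ∑ s, q s * Real.logb 2 (M s) := Finset.sum_pos
    (fun s _ => mul_pos (hq s) (Real.logb_pos one_lt_two (by exact_mod_cast hM s))) hne
  rw [lowerDim_eq_one hε hdig hM hq' hq1 hμ, min_eq_left, ENNReal.ofReal_one]
  rw [one_le_div hχ]
  refine le_ciInf fun m => ?_
  rw [le_div_iff₀ (by positivity)]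
  have := walkH_ge (n := m + 1) (t := t) hε hdig hM hq' hq1 hq
  push_cast at this
  linarith

end Vale.Agent.Results.P114.ResidueBlocks
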